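import Vale.Agent.P281Z.Defs
import Vale.Agent.P280Z.Gp.Defs

/-!
# P280Z: the definitions used in the statements
-/

open scoped Manifold ContDiff Topology Matrix
open Vale.Agent.P272.K Vale.Agent.P285.H281.FD
open Vale.Agent.P277 (Bd.inv)

noncomputable section

namespace Vale.Agent.P280Z

variable (n : ℕ) {X : Type} [TopologicalSpace X] [ChartedSpace (Cm n) X]

/-- `F` is a rational curve: a nonconstant holomorphic map from the projective line, in homogeneous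
coordinates -/
structure RC (F : Cm 2 → X) : Prop where
  hol : ∀ p ≠ 0, ContMDiffAt 𝓘(ℂ, Cm 2) 𝓘(ℂ, Cm n) ω F p
  hom : ∀ (c : ℂ) p, c ≠ 0 → p ≠ 0 → F (c • p) = F p
  ncst : ∃ p q, p ≠ 0 ∧ q ≠ 0 ∧ F p ≠ F q

/-- `F^* L = 𝒪(a)`: the bundle `F^* L ⊗ 𝒪(-a)` has a section without zeros -/
def DegL {X : Type} (L : Bd X) (F : Cm 2 → X) (a : ℤ) : Prop :=
  ∃ β : L.ι → Cm 2 → ℂ, (∀ i, ∀ p ≠ 0, F p ∈ L.U i → AnalyticAt ℂ (β i) p ∧ β i p ≠ 0 ∧
    ∀ c : ℂ, c ≠ 0 → β i (c • p) = c ^ (-a) * β i p) ∧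
    ∀ i j, ∀ p ≠ 0, F p ∈ L.U i → F p ∈ L.U j → β i p = L.g i j (F p) * β j p

/-- `α` is a section without zeros of `F^* Ω ⊗ 𝒪(a)`, that is a quotient `F^* T → 𝒪(a)` -/
structure Quo (F : Cm 2 → X) (a : ℤ) (α : Chart n X → Cm 2 → Cm n) : Prop where
  hol : ∀ e, ∀ p ≠ 0, At e (F p) → AnalyticAt ℂ (α e) p
  nz : ∀ e, ∀ p ≠ 0, At e (F p) → α e p ≠ 0
  hom : ∀ e, ∀ p ≠ 0, At e (F p) → ∀ c : ℂ, c ≠ 0 → α e (c • p) = c ^ a • α e p
  chg : ∀ e e', ∀ p ≠ 0, At e (F p) → At e' (F p) → α e p = α e' p ᵥ* jacM e e' (F p)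

variable (X)

/-- `X` is a Fano manifold: it is connected, and the anticanonical bundle is positive -/
def Fano : Prop := ConnectedSpace X ∧ P281Z.Pos n (Bd.inv (Bd.can n X))

/-- the tautological bundle of the one-dimensional quotients of the tangent bundle has a nonnegative
degree on the rational curves -/
def NefRC : Prop := ∀ F : Cm 2 → X, RC n F → ∀ a α, Quo n F a α → 0 ≤ a

/-- the pseudoindex is `i` -/
def Iota (i : ℤ) : Prop :=
  (∃ F : Cm 2 → X, RC n F ∧ DegL (Bd.inv (Bd.can n X)) F i) ∧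
    ∀ (F : Cm 2 → X) (a : ℤ), RC n F → DegL (Bd.inv (Bd.can n X)) F a → i ≤ a

/-- `h^{1,1} = 1`: two Kähler forms are proportional up to `i ∂∂̄ u` -/
def H11 : Prop :=
  ∀ w w' : Chart n X → Cm n → Matrix (Fin n) (Fin n) ℂ, IsKahler w → IsKahler w' →
    ∃ (c : ℝ) (u : X → ℝ), ∀ (e : Chart n X) x, At e x →
      ContDiffAt ℝ ∞ (fun z => u (e.symm z)) (e x) ∧
        w' e (e x) = (c : ℂ) • w e (e x) + cHess (fun z => u (e.symm z)) (e x)

variable {X}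

/-- `u` is a closed smooth real 2-form, given in the charts -/
structure Cl2 (u : Chart n X → Cm n → Cm n →L[ℝ] Cm n →L[ℝ] ℝ) : Prop where
  sm : ∀ e x, At e x → ContDiffAt ℝ ∞ (u e) (e x)
  alt : ∀ e x, At e x → ∀ v, u e (e x) v v = 0
  chg : ∀ e e' x, At e x → At e' x → ∀ v w,
    u e (e x) v w = u e' (e' x) (jacM e e' x *ᵥ v) (jacM e e' x *ᵥ w)
  cls : ∀ e x, At e x → ∀ a b c, fderiv ℝ (u e) (e x) a b c + fderiv ℝ (u e) (e x) b c a +
    fderiv ℝ (u e) (e x) c a b = 0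

/-- `u` is the differential of a smooth real 1-form -/
def Ex2 (u : Chart n X → Cm n → Cm n →L[ℝ] Cm n →L[ℝ] ℝ) : Prop :=
  ∃ α : Chart n X → Cm n → Cm n →L[ℝ] ℝ, (∀ e x, At e x → ContDiffAt ℝ ∞ (α e) (e x)) ∧
    (∀ e e' x, At e x → At e' x → ∀ v, α e (e x) v = α e' (e' x) (jacM e e' x *ᵥ v)) ∧
    ∀ e x, At e x → ∀ v w, u e (e x) v w = fderiv ℝ (α e) (e x) v w - fderiv ℝ (α e) (e x) w v

variable (X)

/-- the second Betti number is at most one -/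
def B2 : Prop :=
  ∀ u u' : Chart n X → Cm n → Cm n →L[ℝ] Cm n →L[ℝ] ℝ, Cl2 n u → Cl2 n u' →
    ∃ c c' : ℝ, (c ≠ 0 ∨ c' ≠ 0) ∧ Ex2 n (c • u + c' • u')

end Vale.Agent.P280Z
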