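import Vale.Agent.P280Z.B2s
import Vale.Agent.P280Z.Stmt

/-!
# P280Z: the two descriptions of the second Betti number
-/

open scoped ContDiff Matrix
open Vale.Agent.P272.K

noncomputable section

namespace Vale.Agent.P280Z

namespace B2H

variable {n : ℕ}

theorem d1 {α : Cm n → Cm n →L[ℝ] ℝ} {z : Cm n} (h : ContDiffAt ℝ ∞ α z) (v w : Cm n) :
    dirD (fun z => α z w) z v = fderiv ℝ α z v w := by
  have k := ((ContinuousLinearMap.apply ℝ ℝ w).hasFDerivAt.comp z
    (h.differentiableAt (by simp)).hasFDerivAt).fderiv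
  exact congrArg (fun L : Cm n →L[ℝ] ℝ => L v) k

theorem d2 {u : Cm n → Cm n →L[ℝ] Cm n →L[ℝ] ℝ} {z : Cm n} (h : ContDiffAt ℝ ∞ u z)
    (a b c : Cm n) : dirD (fun z => u z b c) z a = fderiv ℝ u z a b c := by
  have k := ((ContinuousLinearMap.apply ℝ (Cm n →L[ℝ] ℝ) b).hasFDerivAt.comp z
    (h.differentiableAt (by simp)).hasFDerivAt).fderiv
  exact (d1 (h.clm_apply contDiffAt_const) a c).trans
    (congrArg (fun L : Cm n →L[ℝ] Cm n →L[ℝ] ℝ => L a c) k)

theorem sm {α : Cm n → Cm n →L[ℝ] ℝ} {z : Cm n} (h : ∀ v, ContDiffAt ℝ ∞ (fun z => α z v) z) :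
    ContDiffAt ℝ ∞ α z := by
  let e₁ := ContinuousLinearEquiv.ofFinrankEq
    (Module.finrank_fin_fun (n := Module.finrank ℝ (Cm n)) ℝ).symm
  let e₂ := (e₁.arrowCongr (1 : ℝ ≃L[ℝ] ℝ)).trans (ContinuousLinearEquiv.piRing _)
  rw [← Function.id_comp α, ← e₂.symm_comp_self]
  exact e₂.symm.contDiff.contDiffAt.comp z (contDiffAt_pi.mpr fun i => h _)

variable {X : Type} [TopologicalSpace X] [ChartedSpace (Cm n) X]

theorem cl {u : Chart n X → Cm n → Cm n →L[ℝ] Cm n →L[ℝ] ℝ} (h : Cl2 n u) :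
    Closed2 n fun e z v w => u e z v w where
  lin e z v := (u e z v : Cm n →ₗ[ℝ] ℝ).isLinear
  alt e x k v w := by
    have := h.alt e x k (v + w)
    simp only [map_add, add_apply, h.alt e x k v, h.alt e x k w] at this
    linarith
  sm e x k v w := ((h.sm e x k).clm_apply contDiffAt_const).clm_apply contDiffAt_const
  chg := h.chg
  cls e x k a b c := by
    rw [d2 (h.sm e x k), d2 (h.sm e x k), d2 (h.sm e x k)]
    exact h.cls e x k a b c

end B2H

open B2H in
theorem b2_of {n : ℕ} {X : Type} [TopologicalSpace X] [ChartedSpace (Cm n) X]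
    (h : BettiTwo n X) : B2 n X := fun u u' k k' => by
  obtain ⟨c, c', h0, α, a1, a2, a3, a4⟩ := h _ _ (cl k) (cl k')
  let A : Chart n X → Cm n → Cm n →L[ℝ] ℝ := fun e z =>
    LinearMap.toContinuousLinearMap (IsLinearMap.mk' _ (a1 e z))
  have s : ∀ e x, At e x → ContDiffAt ℝ ∞ (A e) (e x) := fun e x k => sm (a2 e x k)
  refine ⟨c, c', h0, A, s, a3, fun e x k v w => ?_⟩
  rw [← d1 (s e x k), ← d1 (s e x k)]
  exact a4 e x k v w

end Vale.Agent.P280Z
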