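import Vale.Agent.P272.K.Stmt

/-!
# P280Z: the second Betti number, by de Rham cohomology
-/

open scoped ContDiff Matrix
open Vale.Agent.P272.K

noncomputable section

namespace Vale.Agent.P280Z

/-- the derivative of `f` at `z` in the direction `v` -/
def dirD {n : ℕ} (f : Cm n → ℝ) (z v : Cm n) : ℝ := fderiv ℝ f z v

variable (n : ℕ) {X : Type} [TopologicalSpace X] [ChartedSpace (Cm n) X]

/-- `u` is a closed smooth real 2-form: `u e z v w` is its value in the chart `e` at the point `z`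
on the vectors `v`, `w` -/
structure Closed2 (u : Chart n X → Cm n → Cm n → Cm n → ℝ) : Prop where
  lin : ∀ e z v, IsLinearMap ℝ (u e z v)
  alt : ∀ e x, At e x → ∀ v w, u e (e x) v w = -u e (e x) w v
  sm : ∀ e x, At e x → ∀ v w, ContDiffAt ℝ ∞ (fun z => u e z v w) (e x)
  chg : ∀ e e' x, At e x → At e' x → ∀ v w,
    u e (e x) v w = u e' (e' x) (jacM e e' x *ᵥ v) (jacM e e' x *ᵥ w)
  cls : ∀ e x, At e x → ∀ a b c, dirD (fun z => u e z b c) (e x) a +
    dirD (fun z => u e z c a) (e x) b + dirD (fun z => u e z a b) (e x) c = 0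

/-- `u` is the differential of a smooth real 1-form `α` -/
def Exact2 (u : Chart n X → Cm n → Cm n → Cm n → ℝ) : Prop :=
  ∃ α : Chart n X → Cm n → Cm n → ℝ, (∀ e z, IsLinearMap ℝ (α e z)) ∧
    (∀ e x, At e x → ∀ v, ContDiffAt ℝ ∞ (fun z => α e z v) (e x)) ∧
    (∀ e e' x, At e x → At e' x → ∀ v, α e (e x) v = α e' (e' x) (jacM e e' x *ᵥ v)) ∧
    ∀ e x, At e x → ∀ v w,
      u e (e x) v w = dirD (fun z => α e z w) (e x) v - dirD (fun z => α e z v) (e x) w

variable (X) in
/-- the second Betti number is at most one -/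
def BettiTwo : Prop :=
  ∀ u u' : Chart n X → Cm n → Cm n → Cm n → ℝ, Closed2 n u → Closed2 n u' →
    ∃ c c' : ℝ, (c ≠ 0 ∨ c' ≠ 0) ∧ Exact2 n fun e z v w => c * u e z v w + c' * u' e z v w

end Vale.Agent.P280Z
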