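import Vale.Agent.P280Z.Stmt

/-!
# P280Z: nef tangent bundles
-/

open scoped Manifold ContDiff Topology Matrix
open Vale.Agent.P272.K Vale.Agent.P285.H281.FD Vale.Agent.P281Z
open Vale.Agent.P277 (Bd.inv)

noncomputable section

namespace Vale.Agent.P280Z

variable (n : ℕ) {X : Type} [TopologicalSpace X] [ChartedSpace (Cm n) X]

/-- `α` is a section without zeros of `f^* Ω ⊗ L`, that is a quotient `f^* T → L` -/
structure QuoC {C : Type} [TopologicalSpace C] [ChartedSpace (Cm 1) C] (f : C → X) (L : Bd C)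
    (α : Chart n X → L.ι → C → Cm n) : Prop where
  hol : ∀ e a z, At e (f z) → z ∈ L.U a → ∀ c : Chart 1 C, At c z →
    AnalyticAt ℂ (fun t => α e a (c.symm t)) (c z)
  nz : ∀ e a z, At e (f z) → z ∈ L.U a → α e a z ≠ 0
  fr : ∀ e a b z, At e (f z) → z ∈ L.U a → z ∈ L.U b → α e a z = L.g a b z • α e b z
  chg : ∀ e e' a z, At e (f z) → At e' (f z) → z ∈ L.U a → α e a z = α e' a z ᵥ* jacM e e' (f z)

variable (X) in
/-- the tangent bundle is nef: for no holomorphic map `f` from a compact Riemann surface `C` the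
bundle `f^* T` has a quotient line bundle `L` of negative degree -/
def NefT : Prop :=
  ∀ (C : Mf 1) (f : C.X → X) (L : Bd C.X) (α : Chart n X → L.ι → C.X → Cm n), ConnectedSpace C.X →
    ContMDiff 𝓘(ℂ, Cm 1) 𝓘(ℂ, Cm n) ω f → IsLB 1 L → QuoC n f L α → ¬ Pos 1 (Bd.inv L)

end Vale.Agent.P280Z
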